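import Vale.Agent.P273.H25.Ann
import Vale.Agent.P273.H213.Vmap
import Vale.Agent.P273.H221.Alg

/-!
# The coefficients of the limit (row LIM-Q-K)

`CC z p q` is the coefficient of the theta graphs with chains of lengths `p`, `q - p`, `6 - q` in the
limit of the identity of the certificate `z` (573 #14457), and its closed form.
-/

noncomputable section

namespace Vale.Agent.P273.H25

open Finset MvPolynomial Vale.Agent.P273.H213 Vale.Agent.P273.H221

/-- the directions of the angular forms on the three necks -/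
def mm : Fin 3 → HH := ![![1, 0, 0, 0], ![-1, 0, -1, 0], ![0, 0, 1, 0]]

/-- the values at the three pairs of roots (modulo a common shift) -/
def tt : Fin 3 → HH := ![![0, 1, 0, 0], 0, ![0, 0, 0, 1]]

/-- the value on the core for the torus, all necks of the same length -/
def lam0 : HH := (1 / 3 : ℝ) • (tt 0 + tt 1 + tt 2)

/-- the middle of the two other values -/
def mid (i : Fin 3) : HH := (1 / 2 : ℝ) • (tt 0 + tt 1 + tt 2 - tt i)

/-- the value on the core on the annulus of the neck `i` -/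
def lam (i : Fin 3) (t : ℝ) : HH := t • tt i + (1 - t) • mid i

/-- the bivector of one bubble on the neck `k` -/
def Ak (l : HH) (k : Fin 3) : RR := pl (l - tt k) (mm k)

/-- the product over the bubbles, `n k` on the neck `k` -/
def bub (l : HH) (n : Fin 3 → ℕ) : RR := ∏ k, Ak l k ^ n k

/-- the product of the factorials -/
def fac (n : Fin 3 → ℕ) : ℝ := ∏ k, ((n k).factorial : ℝ)

/-- the torus of the necks `i`, `j` -/
def torC (i j : Fin 3) (w : VV) (n : Fin 3 → ℕ) : ℝ :=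
  (1 / 9) * w (pl (mm i) (mm j) * bub lam0 n) / fac n

/-- the annulus of the neck `i` -/
def annC (i : Fin 3) (v : VV) (n : Fin 3 → ℕ) : ℝ :=
  ∫ t in (0 : ℝ)..(1 / 3), t * v (pl (mid i - tt i) (mm i) * bub (lam i t) n) / fac n

/-- **the coefficient of the theta graphs with chains of lengths `p`, `q - p`, `6 - q`** -/
def CC (z : Cert sV) (p q : ℕ) : ℝ :=
  torC 0 1 z.w13 ![p, q - p, 6 - q] + torC 0 2 z.w15 ![p, q - p, 6 - q] +
    torC 1 2 z.w35 ![p, q - p, 6 - q] - annC 0 z.v1 ![p, q - p, 6 - q] -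
    annC 1 z.v3 ![p, q - p, 6 - q] - annC 2 z.v5 ![p, q - p, 6 - q]

/-! ### closed forms -/

/-- linear forms -/
def lf : (Fin 5 → ℝ) →ₗ[ℝ] RR where
  toFun c := ∑ k, C (c k) * X k
  map_add' a b := by simp [add_mul, Finset.sum_add_distrib]
  map_smul' c a := by
    simp only [Pi.smul_apply, smul_eq_mul, map_mul, mul_assoc, RingHom.id_apply,
      MvPolynomial.smul_eq_C_mul, Finset.mul_sum]

theorem lf_apply (c : Fin 5 → ℝ) : lf c = ∑ k, C (c k) * X k := rfl

theorem pl_eq (x y : HH) : pl x y = lf ![x 0 * y 2 - x 2 * y 0, x 0 * y 3 - x 3 * y 0,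
    x 1 * y 2 - x 2 * y 1, x 1 * y 3 - x 3 * y 1,
    (x 0 * y 1 - x 1 * y 0) - (x 2 * y 3 - x 3 * y 2)] := by
  rw [lf_apply, Fin.sum_univ_five]
  rfl

theorem lf_congr {a b : Fin 5 → ℝ} (h0 : a 0 = b 0) (h1 : a 1 = b 1) (h2 : a 2 = b 2)
    (h3 : a 3 = b 3) (h4 : a 4 = b 4) : lf a = lf b := by
  congr 1
  funext k
  fin_cases k <;> assumption

/-- the forms of the annulus: `A` -/
def fA : Fin 3 → RR :=
  ![lf ![0, -1 / 2, 0, 0, 1], lf ![0, 1 / 2, -1 / 2, 0, 0], lf ![0, 0, 1 / 2, 0, -1]]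

/-- the forms of the annulus: `B0` -/
def fB : Fin 3 → RR :=
  ![lf ![0, 0, 0, 0, -1 / 2], lf ![0, -1 / 2, 0, 0, 1 / 2], lf ![0, 0, 0, 0, 1 / 2]]

/-- the forms of the annulus: `B1` -/
def fD : Fin 3 → RR :=
  ![lf ![0, 0, 1, 0, -1 / 2], lf ![0, 1 / 2, 0, 0, 1 / 2], lf ![0, -1, 0, 0, 1 / 2]]

/-- the neck with the form `B0 + t B1` -/
def kb : Fin 3 → Fin 3 := ![2, 0, 0]

/-- the remaining neck -/
def kc : Fin 3 → Fin 3 := ![1, 2, 1]

theorem A_eq (i : Fin 3) : pl (mid i - tt i) (mm i) = fA i := by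
  rw [pl_eq]
  fin_cases i <;> (refine lf_congr ?_ ?_ ?_ ?_ ?_ <;> simp [mid, tt, mm] <;> norm_num)

theorem Aki (i : Fin 3) (t : ℝ) : Ak (lam i t) i = (1 - t) • fA i := by
  rw [Ak, pl_eq]
  fin_cases i <;> simp only [fA, Fin.zero_eta, Fin.mk_one, Fin.reduceFinMk, Matrix.cons_val,
    ← map_smul] <;>
    (refine lf_congr ?_ ?_ ?_ ?_ ?_ <;> simp [lam, mid, tt, mm] <;> ring)

theorem Akb (i : Fin 3) (t : ℝ) : Ak (lam i t) (kb i) = fB i + t • fD i := by
  rw [Ak, pl_eq]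
  fin_cases i <;> simp only [fB, fD, kb, Fin.zero_eta, Fin.mk_one, Fin.reduceFinMk,
    Matrix.cons_val, ← map_smul, ← map_add] <;>
    (refine lf_congr ?_ ?_ ?_ ?_ ?_ <;> simp [lam, mid, tt, mm] <;> ring)

theorem Akc (i : Fin 3) (t : ℝ) :
    Ak (lam i t) (kc i) = -((1 - t) • fA i + (fB i + t • fD i)) := by
  rw [Ak, pl_eq]
  fin_cases i <;> simp only [fA, fB, fD, kc, Fin.zero_eta, Fin.mk_one, Fin.reduceFinMk,
    Matrix.cons_val, ← map_smul, ← map_add, ← map_neg] <;>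
    (refine lf_congr ?_ ?_ ?_ ?_ ?_ <;> simp [lam, mid, tt, mm] <;> ring)

theorem bub_lam (i : Fin 3) (t : ℝ) (n : Fin 3 → ℕ) :
    bub (lam i t) n = ((1 - t) • fA i) ^ n i * (-((1 - t) • fA i + (fB i + t • fD i))) ^ n (kc i) *
      (fB i + t • fD i) ^ n (kb i) := by
  rw [← Akc, ← Akb, ← Aki, bub, Fin.prod_univ_three]
  fin_cases i <;> simp [kb, kc] <;> ring

/-- **the annulus in closed form** -/
theorem annC_eq (i : Fin 3) (v : VV) (n : Fin 3 → ℕ) :
    annC i v n = (∑ x ∈ range (n (kc i) + 1), ∑ s ∈ range (n (kc i) - x + n (kb i) + 1),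
        ((-1) ^ n (kc i) * ((n (kc i)).choose x : ℝ) *
          ((n (kc i) - x + n (kb i)).choose s : ℝ) *
          v (fA i ^ (n i + x + 1) * fD i ^ s * fB i ^ (n (kc i) - x + n (kb i) - s))) *
          (bt (n i + x) s : ℝ)) / fac n := by
  rw [← annI_eq, annI, annC, ← intervalIntegral.integral_div]
  refine intervalIntegral.integral_congr fun t _ => ?_
  simp only [annF]
  rw [A_eq, bub_lam, ← mul_assoc, ← mul_assoc]

/-- the forms of the torus -/
def gA : RR := lf ![0, -1, 0, 0, 2]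

/-- the forms of the torus -/
def gB : RR := lf ![0, 0, 1, 0, -2]

theorem Ak0 : Ak lam0 0 = (1 / 3 : ℝ) • gA := by
  rw [Ak, pl_eq, gA, ← map_smul]
  refine lf_congr ?_ ?_ ?_ ?_ ?_ <;> simp [lam0, tt, mm] <;> norm_num

theorem Ak2 : Ak lam0 2 = (1 / 3 : ℝ) • gB := by
  rw [Ak, pl_eq, gB, ← map_smul]
  refine lf_congr ?_ ?_ ?_ ?_ ?_ <;> simp [lam0, tt, mm] <;> norm_num

theorem Ak1 : Ak lam0 1 = (1 / 3 : ℝ) • (-(gA + gB)) := by
  rw [Ak, pl_eq, gA, gB, ← map_add, ← map_neg, ← map_smul]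
  refine lf_congr ?_ ?_ ?_ ?_ ?_ <;> simp [lam0, tt, mm]

theorem bub_lam0 (n : Fin 3 → ℕ) :
    bub lam0 n = ((1 / 3 : ℝ) ^ (n 0 + n 1 + n 2)) • ∑ x ∈ range (n 1 + 1),
      ((-1) ^ n 1 * ((n 1).choose x : ℝ)) • (gA ^ (n 0 + x) * gB ^ (n 1 - x + n 2)) := by
  rw [bub, Fin.prod_univ_three, Ak0, Ak1, Ak2, smul_pow, smul_pow, smul_pow, neg_pow, add_pow,
    Finset.smul_sum]
  simp only [Algebra.smul_def, map_mul, map_pow, map_neg, map_one, map_natCast, Finset.mul_sum,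
    Finset.sum_mul]
  refine Finset.sum_congr rfl fun x _ => ?_
  ring

/-- the signs of the tori -/
def tsg (i j : Fin 3) : ℝ := if j = i + 1 then -1 else 1

/-- **the torus in closed form** -/
theorem torC_eq {i j : Fin 3} (hij : i < j) (w : VV) (n : Fin 3 → ℕ) :
    torC i j w n = tsg i j * (1 / 9) * (1 / 3 : ℝ) ^ (n 0 + n 1 + n 2) * (∑ x ∈ range (n 1 + 1),
      (-1) ^ n 1 * ((n 1).choose x : ℝ) * w (X 0 * gA ^ (n 0 + x) * gB ^ (n 1 - x + n 2))) /
      fac n := by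
  have h : w (pl (mm i) (mm j) * bub lam0 n) = tsg i j * ((1 / 3 : ℝ) ^ (n 0 + n 1 + n 2) *
      ∑ x ∈ range (n 1 + 1), (-1) ^ n 1 * ((n 1).choose x : ℝ) *
        w (X 0 * gA ^ (n 0 + x) * gB ^ (n 1 - x + n 2))) := by
    have h0 : pl (mm i) (mm j) = tsg i j • (X 0 : RR) := by
      rw [pl_eq]
      have hX : (X 0 : RR) = lf ![1, 0, 0, 0, 0] := by
        rw [lf_apply, Fin.sum_univ_five]
        simp
      rw [hX, ← map_smul]
      fin_cases i <;> fin_cases j <;> first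
        | exact absurd hij (by decide)
        | (refine lf_congr ?_ ?_ ?_ ?_ ?_ <;> simp [mm, tsg])
    rw [h0, smul_mul_assoc, map_smul, smul_eq_mul, bub_lam0, mul_smul_comm, map_smul, smul_eq_mul,
      Finset.mul_sum, map_sum]
    congr 2
    refine Finset.sum_congr rfl fun x _ => ?_
    rw [mul_smul_comm, map_smul, smul_eq_mul, mul_assoc (X 0)]
  rw [torC, h]
  ring

end Vale.Agent.P273.H25

end
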