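import Vale.Agent.P273.H285.VTab
import Vale.Agent.P273.H681.Cert

/-!
# The coefficients of the certificate (row LIM-Q-K, final form)
-/

namespace Vale.Agent.P273.H25

/-- **the coefficients of helper480's certificate**: the symmetrized coefficients of the limit are
`K * (0, 0, -1, 1, 1, -2, 1)` with `K = -27 / 28` -/
theorem coeff_cert : H503.Coeff (CC H681.cert) (-27 / 28) :=
  H285.coeff_w rfl rfl rfl

end Vale.Agent.P273.H25
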