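import Mathlib

/-!
# The annulus integral in closed form (row LIM-Q-K)

`R` a commutative `ℝ`-algebra, `ℓ` a linear functional, `A = A_i^0`, `B0 + t B1 = A_j(t)`; the third
form is minus the sum of the two others.
-/

namespace Vale.Agent.P273.H25

open Finset

/-- `∫_0^(1/3) t^(s+1) (1-t)^j dt` -/
def bt (j s : ℕ) : ℚ :=
  ∑ r ∈ range (j + 1), (-1) ^ r * (j.choose r : ℚ) * ((1 / 3) ^ (s + r + 2) / (s + r + 2))

theorem integral_bt (j s : ℕ) :
    ∫ t in (0 : ℝ)..(1 / 3), t ^ (s + 1) * (1 - t) ^ j = (bt j s : ℝ) := by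
  have h : ∀ t : ℝ, t ^ (s + 1) * (1 - t) ^ j =
      ∑ r ∈ range (j + 1), ((-1) ^ r * (j.choose r : ℝ)) * t ^ (s + r + 1) := by
    intro t
    have e : (1 - t) = (-t) + 1 := by ring
    rw [e, add_pow, Finset.mul_sum]
    refine Finset.sum_congr rfl fun r _ => ?_
    rw [neg_pow, one_pow]
    ring
  simp only [h]
  rw [intervalIntegral.integral_finsetSum]
  · unfold bt
    push_cast
    refine Finset.sum_congr rfl fun r _ => ?_
    rw [intervalIntegral.integral_const_mul, integral_pow]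
    push_cast
    ring
  · intro r _
    exact (Continuous.intervalIntegrable (by fun_prop) _ _)

section

variable {R : Type*} [CommRing R] [Algebra ℝ R]

/-- the integrand of the annulus -/
noncomputable def annF (ℓ : R →ₗ[ℝ] ℝ) (A B0 B1 : R) (a b c : ℕ) (t : ℝ) : ℝ :=
  t * ℓ (A * ((1 - t) • A) ^ a * (-((1 - t) • A + (B0 + t • B1))) ^ b * (B0 + t • B1) ^ c)

theorem annF_eq (ℓ : R →ₗ[ℝ] ℝ) (A B0 B1 : R) (a b c : ℕ) (t : ℝ) :
    annF ℓ A B0 B1 a b c t =
      ∑ x ∈ range (b + 1), ∑ s ∈ range (b - x + c + 1),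
        ((-1) ^ b * (b.choose x : ℝ) * ((b - x + c).choose s : ℝ) *
          ℓ (A ^ (a + x + 1) * B1 ^ s * B0 ^ (b - x + c - s))) *
          (t ^ (s + 1) * (1 - t) ^ (a + x)) := by
  have h1 : A * ((1 - t) • A) ^ a * (-((1 - t) • A + (B0 + t • B1))) ^ b * (B0 + t • B1) ^ c =
      ∑ x ∈ range (b + 1), ∑ s ∈ range (b - x + c + 1),
        ((-1) ^ b * (b.choose x : ℝ) * ((b - x + c).choose s : ℝ) *
          (t ^ s * (1 - t) ^ (a + x))) •
          (A ^ (a + x + 1) * B1 ^ s * B0 ^ (b - x + c - s)) := by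
    rw [neg_pow, add_pow ((1 - t) • A), Finset.mul_sum, Finset.mul_sum, Finset.sum_mul]
    refine Finset.sum_congr rfl fun x hx => ?_
    have h2 : (B0 + t • B1) ^ (b - x) * (B0 + t • B1) ^ c =
        ∑ s ∈ range (b - x + c + 1),
          (t ^ s * ((b - x + c).choose s : ℝ)) • (B1 ^ s * B0 ^ (b - x + c - s)) := by
      rw [← pow_add, add_comm B0, add_pow]
      refine Finset.sum_congr rfl fun s _ => ?_
      rw [smul_pow, mul_smul, Nat.cast_smul_eq_nsmul ℝ]
      simp only [smul_mul_assoc, nsmul_eq_mul]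
      ring_nf
    have h3 : A * ((1 - t) • A) ^ a * ((-1) ^ b * (((1 - t) • A) ^ x * (B0 + t • B1) ^ (b - x) *
        (b.choose x : R))) * (B0 + t • B1) ^ c =
        ((-1 : ℝ) ^ b * (b.choose x : ℝ) * (1 - t) ^ (a + x)) • (A ^ (a + x + 1) *
          ((B0 + t • B1) ^ (b - x) * (B0 + t • B1) ^ c)) := by
      simp only [Algebra.smul_def, map_mul, map_pow, map_neg, map_one, map_natCast]
      ring
    rw [h3, h2, Finset.mul_sum, Finset.smul_sum]
    refine Finset.sum_congr rfl fun s _ => ?_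
    simp only [Algebra.smul_def, map_mul, map_pow, map_neg, map_one, map_natCast]
    ring
  unfold annF
  rw [h1]
  simp only [map_sum, map_smul, smul_eq_mul, Finset.mul_sum]
  refine Finset.sum_congr rfl fun x _ => Finset.sum_congr rfl fun s _ => ?_
  ring

theorem continuous_annF (ℓ : R →ₗ[ℝ] ℝ) (A B0 B1 : R) (a b c : ℕ) :
    Continuous (annF ℓ A B0 B1 a b c) := by
  have h : annF ℓ A B0 B1 a b c = fun t => _ := funext (annF_eq ℓ A B0 B1 a b c)
  rw [h]
  fun_prop

/-- the annulus integral -/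
noncomputable def annI (ℓ : R →ₗ[ℝ] ℝ) (A B0 B1 : R) (a b c : ℕ) : ℝ :=
  ∫ t in (0 : ℝ)..(1 / 3), annF ℓ A B0 B1 a b c t

theorem annI_eq (ℓ : R →ₗ[ℝ] ℝ) (A B0 B1 : R) (a b c : ℕ) :
    annI ℓ A B0 B1 a b c =
      ∑ x ∈ range (b + 1), ∑ s ∈ range (b - x + c + 1),
        ((-1) ^ b * (b.choose x : ℝ) * ((b - x + c).choose s : ℝ) *
          ℓ (A ^ (a + x + 1) * B1 ^ s * B0 ^ (b - x + c - s))) * (bt (a + x) s : ℝ) := by
  unfold annI
  simp only [annF_eq]
  rw [intervalIntegral.integral_finsetSum]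
  · refine Finset.sum_congr rfl fun x _ => ?_
    rw [intervalIntegral.integral_finsetSum]
    · refine Finset.sum_congr rfl fun s _ => ?_
      rw [intervalIntegral.integral_const_mul, integral_bt]
    · intro s _
      exact (Continuous.intervalIntegrable (by fun_prop) _ _)
  · intro x _
    exact (Continuous.intervalIntegrable (by fun_prop) _ _)

end

end Vale.Agent.P273.H25
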