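import Vale.Agent.P273.H931.Simplex

/-!
# The volume of the cell of the large gaps, and the sum over the eliminated gaps

`I` = free large gaps, `nk i` = neck of the gap.  The cell is
`0 ≤ v i ≤ Y (nk i) - (sum of the v j on the same neck)`, where the right side is the eliminated gap.
-/

namespace Vale.Agent.P273.H25

open MeasureTheory Finset
open scoped Nat ENNReal

/-- the cell of one neck -/
def cell1 (I : Type) [Fintype I] (y : ℝ) : Set (I → ℝ) :=
  {v | (∀ i, 0 ≤ v i) ∧ ∀ i, v i ≤ y - ∑ j, v j}

theorem measurableSet_cell1 (I : Type) [Fintype I] (y : ℝ) : MeasurableSet (cell1 I y) := by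
  have h1 : IsClosed {v : I → ℝ | ∀ g, 0 ≤ v g} := by
    have : {v : I → ℝ | ∀ g, 0 ≤ v g} = ⋂ g, {v | 0 ≤ v g} := by
      ext v; simp
    rw [this]
    exact isClosed_iInter fun g => isClosed_le continuous_const (continuous_apply g)
  have h2 : IsClosed {v : I → ℝ | ∀ g, v g ≤ y - ∑ j, v j} := by
    have : {v : I → ℝ | ∀ g, v g ≤ y - ∑ j, v j} = ⋂ g, {v | v g ≤ y - ∑ j, v j} := by
      ext v; simp
    rw [this]
    exact isClosed_iInter fun g => isClosed_le (continuous_apply g) (by fun_prop)
  exact (h1.inter h2).measurableSet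

/-- invariance under relabelling -/
theorem volume_cell1_congr {I J : Type} [Fintype I] [Fintype J] (e : J ≃ I) (y : ℝ) :
    volume (cell1 J y) = volume (cell1 I y) := by
  have h := (volume_measurePreserving_piCongrLeft (fun _ : I => ℝ) e).measure_preimage_equiv
    (cell1 I y)
  rw [← h]
  congr 1
  ext v
  have hv : ∀ i : I, (MeasurableEquiv.piCongrLeft (fun _ : I => ℝ) e) v i = v (e.symm i) := by
    intro i
    obtain ⟨j, rfl⟩ := e.surjective i
    rw [e.symm_apply_apply, MeasurableEquiv.coe_piCongrLeft]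
    exact Equiv.piCongrLeft_apply_apply (fun _ : I => ℝ) e v j
  have hs : ∑ i : I, (MeasurableEquiv.piCongrLeft (fun _ : I => ℝ) e) v i = ∑ j, v j := by
    simp only [hv]
    exact e.symm.sum_comp v
  simp only [cell1, Set.mem_preimage, Set.mem_ofPred_eq, hs]
  simp only [hv]
  constructor
  · rintro ⟨h1, h2⟩
    exact ⟨fun i => h1 _, fun i => h2 _⟩
  · rintro ⟨h1, h2⟩
    refine ⟨fun j => ?_, fun j => ?_⟩
    · have := h1 (e j)
      rwa [e.symm_apply_apply] at this
    · have := h2 (e j)
      rwa [e.symm_apply_apply] at this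

/-- **the volume of the cell of one neck** -/
theorem volume_cell1 (I : Type) [Fintype I] {y : ℝ} (hy : 0 ≤ y) :
    volume (cell1 I y) = ENNReal.ofReal (y ^ Fintype.card I / ((Fintype.card I + 1)! : ℝ)) := by
  classical
  have h := H931.sum_volume_ennreal (G := Option I) y hy
  have h1 : ∀ l : Option I, volume {v : {g : Option I // g ≠ l} → ℝ |
      (∀ g, 0 ≤ v g) ∧ ∀ g, v g ≤ y - ∑ g, v g} = volume (cell1 I y) := by
    intro l
    have hc : Fintype.card {g : Option I // g ≠ l} = Fintype.card I := by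
      rw [H931.card_ne, Fintype.card_option, Nat.add_sub_cancel]
    exact volume_cell1_congr (Fintype.equivOfCardEq hc) y
  rw [Finset.sum_congr rfl fun l _ => h1 l, Finset.sum_const, Finset.card_univ,
    Fintype.card_option, nsmul_eq_mul, Nat.add_sub_cancel] at h
  have h2 : ((Fintype.card I + 1 : ℕ) : ℝ≥0∞) ≠ 0 :=
    Nat.cast_ne_zero.2 (Nat.succ_ne_zero (Fintype.card I))
  have h3 : ((Fintype.card I + 1 : ℕ) : ℝ≥0∞) ≠ ⊤ := ENNReal.natCast_ne_top _
  have h4 : volume (cell1 I y) = ENNReal.ofReal (y ^ Fintype.card I / ((Fintype.card I)! : ℝ)) /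
      ((Fintype.card I + 1 : ℕ) : ℝ≥0∞) := by
    rw [ENNReal.eq_div_iff h2 h3]
    exact h
  rw [h4, ← ENNReal.ofReal_natCast, ← ENNReal.ofReal_div_of_pos (by positivity)]
  congr 1
  rw [Nat.factorial_succ]
  push_cast
  rw [div_div]
  ring_nf

section necks

variable {I K : Type}

/-- from the families over the necks to one family -/
def glue (nk : I → K) (w : ∀ k, {i // nk i = k} → ℝ) (i : I) : ℝ := w (nk i) ⟨i, rfl⟩

theorem glue_apply (nk : I → K) (w : ∀ k, {i // nk i = k} → ℝ) {k : K} (i : {i // nk i = k}) :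
    glue nk w i.1 = w k i := by
  obtain ⟨i, rfl⟩ := i
  rfl

variable [Fintype I] [DecidableEq K]

theorem measurePreserving_glue [Fintype K] (nk : I → K) : MeasurePreserving (glue nk) := by
  classical
  have hm : Measurable (glue nk) := by
    refine measurable_pi_lambda _ fun i => ?_
    exact (measurable_pi_apply (⟨i, rfl⟩ : {j // nk j = nk i})).comp (measurable_pi_apply (nk i))
  refine ⟨hm, ?_⟩
  refine (Measure.pi_eq fun s hs => ?_).symm
  have hpre : glue nk ⁻¹' Set.pi Set.univ s =
      Set.pi Set.univ fun k => Set.pi Set.univ fun i : {i // nk i = k} => s i.1 := by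
    ext w
    simp only [Set.mem_preimage, Set.mem_pi, Set.mem_univ, forall_true_left]
    constructor
    · intro h k i
      rw [← glue_apply nk w i]
      exact h i.1
    · intro h i
      exact h (nk i) ⟨i, rfl⟩
  rw [Measure.map_apply hm (MeasurableSet.univ_pi hs), hpre, volume_pi, Measure.pi_pi]
  have h1 : ∀ k, (volume : Measure ({i // nk i = k} → ℝ))
      (Set.pi Set.univ fun i : {i // nk i = k} => s i.1) = ∏ i : {i // nk i = k}, volume (s i.1) := by
    intro k
    rw [volume_pi, Measure.pi_pi]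
  rw [Finset.prod_congr rfl fun k _ => h1 k]
  exact (Fintype.prod_fiberwise nk fun i => volume (s i))

/-- the cell of the free large gaps -/
def cell (nk : I → K) (Y : K → ℝ) : Set (I → ℝ) :=
  {v | (∀ i, 0 ≤ v i) ∧ ∀ i, v i ≤ Y (nk i) - ∑ j, if nk j = nk i then v j else 0}

theorem measurableSet_cell (nk : I → K) (Y : K → ℝ) : MeasurableSet (cell nk Y) := by
  have h1 : IsClosed {v : I → ℝ | ∀ g, 0 ≤ v g} := by
    have : {v : I → ℝ | ∀ g, 0 ≤ v g} = ⋂ g, {v | 0 ≤ v g} := by
      ext v; simp
    rw [this]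
    exact isClosed_iInter fun g => isClosed_le continuous_const (continuous_apply g)
  have h2 : IsClosed {v : I → ℝ |
      ∀ i, v i ≤ Y (nk i) - ∑ j, if nk j = nk i then v j else 0} := by
    have : {v : I → ℝ | ∀ i, v i ≤ Y (nk i) - ∑ j, if nk j = nk i then v j else 0} =
        ⋂ i, {v | v i ≤ Y (nk i) - ∑ j, if nk j = nk i then v j else 0} := by
      ext v; simp
    rw [this]
    refine isClosed_iInter fun i => isClosed_le (continuous_apply i) ?_
    refine continuous_const.sub (continuous_finsetSum _ fun j _ => ?_)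
    split_ifs
    · exact continuous_apply j
    · exact continuous_const
  exact (h1.inter h2).measurableSet

theorem glue_mem_cell (nk : I → K) (Y : K → ℝ) (w : ∀ k, {i // nk i = k} → ℝ) :
    glue nk w ∈ cell nk Y ↔ ∀ k, w k ∈ cell1 {i // nk i = k} (Y k) := by
  classical
  have hs : ∀ k, ∑ j, (if nk j = k then glue nk w j else 0) = ∑ j : {i // nk i = k}, w k j := by
    intro k
    rw [← Finset.sum_filter, Finset.sum_subtype (p := fun i => nk i = k) _ (by simp)]
    exact Finset.sum_congr rfl fun j _ => glue_apply nk w j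
  constructor
  · rintro ⟨h1, h2⟩ k
    refine ⟨fun i => ?_, fun i => ?_⟩
    · rw [← glue_apply nk w i]
      exact h1 _
    · have h := h2 i.1
      rw [i.2, hs, glue_apply nk w i] at h
      exact h
  · intro h
    refine ⟨fun i => (h (nk i)).1 ⟨i, rfl⟩, fun i => ?_⟩
    rw [hs]
    exact (h (nk i)).2 ⟨i, rfl⟩

/-- **the volume of the cell** -/
theorem volume_cell [Fintype K] (nk : I → K) {Y : K → ℝ} (hY : ∀ k, 0 ≤ Y k) :
    volume (cell nk Y) = ENNReal.ofReal (∏ k, Y k ^ Fintype.card {i // nk i = k} /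
      ((Fintype.card {i // nk i = k} + 1)! : ℝ)) := by
  have h := (measurePreserving_glue nk).measure_preimage (measurableSet_cell nk Y).nullMeasurableSet
  have hpre : glue nk ⁻¹' cell nk Y =
      Set.pi Set.univ fun k => cell1 {i // nk i = k} (Y k) := by
    ext w
    rw [Set.mem_preimage, glue_mem_cell]
    simp
  rw [← h, hpre, volume_pi, Measure.pi_pi, Finset.prod_congr rfl fun k _ => volume_cell1 _ (hY k),
    ENNReal.ofReal_prod_of_nonneg fun k _ => by
      have := hY k
      positivity]

theorem volume_real_cell [Fintype K] (nk : I → K) {Y : K → ℝ} (hY : ∀ k, 0 ≤ Y k) :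
    volume.real (cell nk Y) = ∏ k, Y k ^ Fintype.card {i // nk i = k} /
      ((Fintype.card {i // nk i = k} + 1)! : ℝ) := by
  rw [Measure.real, volume_cell nk hY, ENNReal.toReal_ofReal]
  exact Finset.prod_nonneg fun k _ => by
    have := hY k
    positivity

end necks

/-- the number of choices of the eliminated gaps times the volume of one cell: `q k` = number of
free large gaps of the neck `k` -/
theorem choices_mul_volume {K : Type} [Fintype K] (q : K → ℕ) (Y : K → ℝ) :
    (∏ k, ((q k + 1 : ℕ) : ℝ)) * ∏ k, Y k ^ q k / ((q k + 1)! : ℝ) = ∏ k, Y k ^ q k / ((q k)! : ℝ) := by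
  rw [← Finset.prod_mul_distrib]
  refine Finset.prod_congr rfl fun k _ => ?_
  rw [Nat.factorial_succ]
  have h1 : ((q k + 1 : ℕ) : ℝ) ≠ 0 := by positivity
  have h2 : ((q k)! : ℝ) ≠ 0 := by positivity
  push_cast at h1 ⊢
  field_simp

end Vale.Agent.P273.H25
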