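import Vale.Agent.P273.H732.Word
import Vale.Agent.P273.H25.Last

/-!
# The sum over the eliminated gaps

A pair (choice `m` of the eliminated gaps, set `B` of large free gaps) is the same as a set `B'` of
gaps that meets every neck, with one marked gap of `B'` on every neck.
-/

namespace Vale.Agent.P273.H25

open Finset Vale.Agent.P273.H732
open scoped Nat

set_option linter.unusedSectionVars false

variable {K : Type} [DecidableEq K] [Fintype K] {n : K → ℕ}

/-- all large gaps: the free ones and the eliminated ones -/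
def up (m : ∀ k, Fin (n k + 1)) (B : Finset (wreg n m).Fr) : Finset (Σ k, Fin (n k + 1)) :=
  B.map ⟨Subtype.val, Subtype.val_injective⟩ ∪ univ.image fun k => ⟨k, m k⟩

/-- the free ones -/
def dn (m : ∀ k, Fin (n k + 1)) (B' : Finset (Σ k, Fin (n k + 1))) : Finset (wreg n m).Fr :=
  univ.filter fun f => f.1 ∈ B'

theorem fr_ne (m : ∀ k, Fin (n k + 1)) (f : (wreg n m).Fr) (k : K) : f.1 ≠ ⟨k, m k⟩ := by
  intro h
  apply f.2
  show f.1 = ⟨f.1.1, m f.1.1⟩
  rw [h]

theorem fr_of_ne (m : ∀ k, Fin (n k + 1)) {g : Σ k, Fin (n k + 1)} (h : ∀ k, g ≠ ⟨k, m k⟩) :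
    g ≠ (wreg n m).last ((wreg n m).nk g) := h g.1

theorem dn_up (m : ∀ k, Fin (n k + 1)) (B : Finset (wreg n m).Fr) : dn m (up m B) = B := by
  ext f
  simp only [dn, up, mem_filter, mem_univ, true_and, mem_union, mem_map, mem_image,
    Function.Embedding.coeFn_mk]
  constructor
  · rintro (⟨g, hg, h⟩ | ⟨k, h⟩)
    · rwa [← Subtype.val_injective h]
    · exact absurd h.symm (fr_ne m f k)
  · intro h
    exact Or.inl ⟨f, h, rfl⟩

theorem up_dn (m : ∀ k, Fin (n k + 1)) {B' : Finset (Σ k, Fin (n k + 1))}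
    (h : ∀ k, (⟨k, m k⟩ : Σ k, Fin (n k + 1)) ∈ B') : up m (dn m B') = B' := by
  ext g
  simp only [dn, up, mem_filter, mem_univ, true_and, mem_union, mem_map, mem_image,
    Function.Embedding.coeFn_mk]
  constructor
  · rintro (⟨f, hf, rfl⟩ | ⟨k, rfl⟩)
    · exact hf
    · exact h k
  · intro hg
    by_cases h1 : ∃ k, (⟨k, m k⟩ : Σ k, Fin (n k + 1)) = g
    · exact Or.inr h1
    · push Not at h1
      exact Or.inl ⟨⟨g, fr_of_ne m fun k => (h1 k).symm⟩, hg, rfl⟩

theorem mem_up (m : ∀ k, Fin (n k + 1)) (B : Finset (wreg n m).Fr) (k : K) :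
    (⟨k, m k⟩ : Σ k, Fin (n k + 1)) ∈ up m B :=
  mem_union_right _ (mem_image_of_mem _ (mem_univ k))

/-- the gaps of `B'` on the neck `k` -/
def on (B' : Finset (Σ k, Fin (n k + 1))) (k : K) : Finset (Fin (n k + 1)) :=
  univ.filter fun j => (⟨k, j⟩ : Σ k, Fin (n k + 1)) ∈ B'

/-- **the two indexings** -/
theorem sum_last_eq {M : Type*} [AddCommMonoid M]
    (f : ∀ m : (∀ k, Fin (n k + 1)), Finset (wreg n m).Fr → M) :
    ∑ m : (∀ k, Fin (n k + 1)), ∑ B : Finset (wreg n m).Fr, f m B =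
      ∑ B' : Finset (Σ k, Fin (n k + 1)), ∑ m ∈ Fintype.piFinset (on B'), f m (dn m B') := by
  rw [Finset.sum_sigma' univ (fun _ => univ), Finset.sum_sigma' univ]
  refine Finset.sum_bij' (fun x _ => ⟨up x.1 x.2, x.1⟩) (fun x _ => ⟨x.2, dn x.2 x.1⟩) ?_ ?_ ?_ ?_ ?_
  · rintro ⟨m, B⟩ _
    simp only [mem_sigma, mem_univ, true_and, Fintype.mem_piFinset]
    intro k
    simpa [on] using mem_up m B k
  · rintro ⟨B', m⟩ _
    simp
  · rintro ⟨m, B⟩ _
    simp [dn_up]
  · rintro ⟨B', m⟩ h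
    simp only [mem_sigma, mem_univ, true_and, Fintype.mem_piFinset] at h
    have h' : ∀ k, (⟨k, m k⟩ : Σ k, Fin (n k + 1)) ∈ B' := fun k => by
      simpa [on] using h k
    simp [up_dn m h']
  · rintro ⟨m, B⟩ _
    simp [dn_up]

/-- number of the free large gaps of a neck -/
theorem card_fr_on (m : ∀ k, Fin (n k + 1)) {B' : Finset (Σ k, Fin (n k + 1))}
    (h : ∀ k, (⟨k, m k⟩ : Σ k, Fin (n k + 1)) ∈ B') (k : K) :
    Fintype.card {i : {f // f ∈ dn m B'} // (wreg n m).nk i.1.1 = k} + 1 = (on B' k).card := by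
  classical
  have h1 : (on B' k).card = ((on B' k).erase (m k)).card + 1 := by
    rw [Finset.card_erase_of_mem, Nat.sub_add_cancel]
    · exact Finset.card_pos.2 ⟨m k, by simpa [on] using h k⟩
    · simpa [on] using h k
  rw [h1, ← Fintype.card_coe]
  congr 1
  refine Fintype.card_congr ?_
  refine
    { toFun := fun i => ⟨i.2 ▸ i.1.1.1.2, ?_⟩
      invFun := fun j => ⟨⟨⟨⟨k, j.1⟩, ?_⟩, ?_⟩, rfl⟩
      left_inv := ?_
      right_inv := ?_ }
  · obtain ⟨⟨⟨⟨k', j⟩, hf⟩, hB⟩, hk⟩ := i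
    change k' = k at hk
    subst hk
    refine Finset.mem_erase.2 ⟨fun e => hf ?_, ?_⟩
    · change j = m k' at e
      show (⟨k', j⟩ : Σ k, Fin (n k + 1)) = ⟨k', m k'⟩
      rw [e]
    · simpa [on, dn] using hB
  · intro e
    have e' : (⟨k, j.1⟩ : Σ k, Fin (n k + 1)) = ⟨k, m k⟩ := e
    have : j.1 = m k := by simpa using e'
    exact (Finset.mem_erase.1 j.2).1 this
  · simpa [on, dn] using (Finset.mem_erase.1 j.2).2
  · rintro ⟨⟨⟨⟨k', j⟩, hf⟩, hB⟩, hk⟩
    change k' = k at hk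
    subst hk
    rfl
  · rintro ⟨j, hj⟩
    rfl

/-- **the sum over the eliminated gaps**: if the term of `(m, B)` is `c (up m B)` times the volume of
the cell, the sum is over the sets `B'` of gaps that meet every neck, with the full simplex volumes -/
theorem sum_last (Y : K → ℝ)
    (f : ∀ m : (∀ k, Fin (n k + 1)), Finset (wreg n m).Fr → ℝ)
    (c : Finset (Σ k, Fin (n k + 1)) → ℝ)
    (hf : ∀ m B, f m B = c (up m B) *
      ∏ k, Y k ^ Fintype.card {i : {f // f ∈ B} // (wreg n m).nk i.1.1 = k} /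
        ((Fintype.card {i : {f // f ∈ B} // (wreg n m).nk i.1.1 = k} + 1)! : ℝ)) :
    ∑ m : (∀ k, Fin (n k + 1)), ∑ B : Finset (wreg n m).Fr, f m B =
      ∑ B' : Finset (Σ k, Fin (n k + 1)) with ∀ k, (on B' k).Nonempty,
        c B' * ∏ k, Y k ^ ((on B' k).card - 1) / (((on B' k).card - 1)! : ℝ) := by
  rw [sum_last_eq, Finset.sum_filter]
  refine Finset.sum_congr rfl fun B' _ => ?_
  by_cases hB : ∀ k, (on B' k).Nonempty
  · rw [if_pos hB]
    have h1 : ∀ m ∈ Fintype.piFinset (on B'), f m (dn m B') =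
        c B' * ∏ k, Y k ^ ((on B' k).card - 1) / (((on B' k).card - 1 + 1)! : ℝ) := by
      intro m hm
      have h' : ∀ k, (⟨k, m k⟩ : Σ k, Fin (n k + 1)) ∈ B' := fun k => by
        simpa [on] using Fintype.mem_piFinset.1 hm k
      rw [hf, up_dn m h']
      congr 1
      refine Finset.prod_congr rfl fun k _ => ?_
      rw [← card_fr_on m h' k, Nat.add_sub_cancel]
    rw [Finset.sum_congr rfl h1, Finset.sum_const, Fintype.card_piFinset, nsmul_eq_mul]
    have h2 := choices_mul_volume (fun k => (on B' k).card - 1) Y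
    have h3 : ∀ k, (on B' k).card - 1 + 1 = (on B' k).card := fun k =>
      Nat.sub_add_cancel (Finset.card_pos.2 (hB k))
    rw [← h2]
    simp only [h3]
    push_cast
    ring
  · rw [if_neg hB]
    refine Finset.sum_eq_zero fun m hm => absurd (fun k => ?_) hB
    exact ⟨m k, Fintype.mem_piFinset.1 hm k⟩

end Vale.Agent.P273.H25
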