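import Mathlib

/-!
# PSI: the sum over the swaps and over the permutations (row LIM-Q-PSI)

`R` a commutative ring, `w : H → H → R` antisymmetric with the Plücker relation.  For pairs
`(P k, Q k)` the sum over the `2 ^ n` swaps and over the `n !` permutations of
`∏ w (x_k) (y_(π k))` is `(n + 1)! * ∏ w (P k) (Q k)`.
-/

namespace Vale.Agent.P273.H25

open Finset Equiv

variable {R H : Type*} [CommRing R]

/-- the vector in the `x`-slot (`true` = not swapped) -/
def sx (P Q : H) (e : Bool) : H := if e then P else Q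

/-- the vector in the `y`-slot -/
def sy (P Q : H) (e : Bool) : H := if e then Q else P

/-- the sign of one swap -/
def sg (e : Bool) : R := if e then 1 else -1

/-- one term: permutation `π`, swaps `e` -/
def term (w : H → H → R) {n : ℕ} (P Q : Fin n → H) (e : Fin n → Bool) (π : Perm (Fin n)) : R :=
  (∏ k, (sg (e k) : R)) *
    ∏ k, w (sx (P k) (Q k) (e k)) (sy (P (π k)) (Q (π k)) (e (π k)))

theorem term_zero (w : H → H → R) (halt : ∀ a b, w b a = - w a b) {n : ℕ}
    (P Q : Fin (n + 1) → H) (e0 : Bool) (e : Fin n → Bool) (σ : Perm (Fin n)) :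
    term w P Q (Fin.cons e0 e) (Equiv.Perm.decomposeFin.symm (0, σ)) =
      w (P 0) (Q 0) * term w (fun k => P k.succ) (fun k => Q k.succ) e σ := by
  unfold term
  rw [Fin.prod_univ_succ, Fin.prod_univ_succ]
  simp only [Fin.cons_zero, Fin.cons_succ, Equiv.Perm.decomposeFin_symm_apply_zero,
    Equiv.Perm.decomposeFin_symm_apply_succ, Equiv.swap_self, Equiv.refl_apply]
  have h : (sg e0 : R) * w (sx (P 0) (Q 0) e0) (sy (P 0) (Q 0) e0) = w (P 0) (Q 0) := by
    cases e0
    · simp [sg, sx, sy, halt (P 0) (Q 0)]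
    · simp [sg, sx, sy]
  rw [← h]
  ring

theorem sum_term_succ (w : H → H → R) (halt : ∀ a b, w b a = - w a b)
    (hpl : ∀ a b c d, w a b * w c d - w a c * w b d + w a d * w b c = 0) {n : ℕ}
    (P Q : Fin (n + 1) → H) (e : Fin n → Bool) (σ : Perm (Fin n)) (j : Fin n) :
    ∑ e0 : Bool, term w P Q (Fin.cons e0 e) (Equiv.Perm.decomposeFin.symm (j.succ, σ)) =
      w (P 0) (Q 0) * term w (fun k => P k.succ) (fun k => Q k.succ) e σ := by
  unfold term
  obtain ⟨a, rfl⟩ : ∃ a, σ a = j := ⟨σ.symm j, by simp⟩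
  have key : ∀ e0 : Bool, (∏ k : Fin n, w (sx (P k.succ) (Q k.succ) (e k))
      (sy (P (Equiv.swap 0 (σ a).succ (σ k).succ)) (Q (Equiv.swap 0 (σ a).succ (σ k).succ))
        ((Fin.cons e0 e : Fin (n + 1) → Bool) (Equiv.swap 0 (σ a).succ (σ k).succ)))) =
      w (sx (P a.succ) (Q a.succ) (e a)) (sy (P 0) (Q 0) e0) *
        ∏ k ∈ univ.erase a, w (sx (P k.succ) (Q k.succ) (e k))
          (sy (P (σ k).succ) (Q (σ k).succ) (e (σ k))) := by
    intro e0
    rw [← Finset.mul_prod_erase univ _ (Finset.mem_univ a)]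
    congr 1
    · simp
    · refine Finset.prod_congr rfl fun k hk => ?_
      have hka : k ≠ a := (Finset.mem_erase.1 hk).1
      have h1 : (σ k).succ ≠ (σ a).succ := by
        intro h
        exact hka (σ.injective (Fin.succ_injective _ h))
      rw [Equiv.swap_apply_of_ne_of_ne (Fin.succ_ne_zero _) h1]
      simp
  simp only [Fin.prod_univ_succ, Fin.cons_zero, Fin.cons_succ,
    Equiv.Perm.decomposeFin_symm_apply_zero, Equiv.Perm.decomposeFin_symm_apply_succ]
  rw [Fintype.sum_bool, key, key, ← Finset.mul_prod_erase univ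
    (fun k => w (sx (P k.succ) (Q k.succ) (e k)) (sy (P (σ k).succ) (Q (σ k).succ) (e (σ k))))
    (Finset.mem_univ a)]
  generalize (∏ k ∈ univ.erase a, w (sx (P k.succ) (Q k.succ) (e k))
          (sy (P (σ k).succ) (Q (σ k).succ) (e (σ k)))) = Z
  generalize (∏ i : Fin n, (sg (e i) : R)) = S
  generalize sx (P a.succ) (Q a.succ) (e a) = A
  generalize sy (P (σ a).succ) (Q (σ a).succ) (e (σ a)) = B
  have h := hpl A B (P 0) (Q 0)
  rw [halt (Q 0) B, halt (P 0) B] at h
  simp only [sg, sx, sy]
  simp only [if_true, Bool.false_eq_true, if_false]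
  linear_combination (-(S * Z)) * h

/-- **PSI.** -/
theorem psi (w : H → H → R) (halt : ∀ a b, w b a = - w a b)
    (hpl : ∀ a b c d, w a b * w c d - w a c * w b d + w a d * w b c = 0) :
    ∀ (n : ℕ) (P Q : Fin n → H),
      ∑ e : Fin n → Bool, ∑ π : Perm (Fin n), term w P Q e π =
        (Nat.factorial (n + 1) : R) * ∏ k, w (P k) (Q k)
  | 0, P, Q => by simp [term]
  | n + 1, P, Q => by
    have ih := psi w halt hpl n (fun k => P k.succ) (fun k => Q k.succ)
    rw [← (Fin.consEquiv (fun _ : Fin (n + 1) => Bool)).sum_comp]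
    have h1 : ∀ x : Bool × (Fin n → Bool),
        ∑ π : Perm (Fin (n + 1)), term w P Q ((Fin.consEquiv (fun _ : Fin (n + 1) => Bool)) x) π =
        ∑ σ : Perm (Fin n), ∑ p : Fin (n + 1),
          term w P Q (Fin.cons x.1 x.2) (Equiv.Perm.decomposeFin.symm (p, σ)) := by
      intro x
      rw [← Equiv.Perm.decomposeFin.symm.sum_comp, Fintype.sum_prod_type_right]
      rfl
    rw [Finset.sum_congr rfl fun x _ => h1 x, Fintype.sum_prod_type_right]
    have h2 : ∀ e : Fin n → Bool, ∑ e0 : Bool, ∑ σ : Perm (Fin n), ∑ p : Fin (n + 1),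
        term w P Q (Fin.cons e0 e) (Equiv.Perm.decomposeFin.symm (p, σ)) =
        ∑ σ : Perm (Fin n), ((n : R) + 2) *
          (w (P 0) (Q 0) * term w (fun k => P k.succ) (fun k => Q k.succ) e σ) := by
      intro e
      rw [Finset.sum_comm]
      refine Finset.sum_congr rfl fun σ _ => ?_
      rw [Finset.sum_comm, Fin.sum_univ_succ]
      simp only [sum_term_succ w halt hpl, term_zero w halt]
      rw [Finset.sum_const, Finset.sum_const]
      simp only [Finset.card_univ, Fintype.card_bool, Fintype.card_fin, nsmul_eq_mul]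
      push_cast
      ring
    simp only at h2 ⊢
    rw [Finset.sum_congr rfl fun e _ => h2 e]
    simp only [← Finset.mul_sum]
    rw [ih, Fin.prod_univ_succ, Nat.factorial_succ (n + 1)]
    push_cast
    ring

end Vale.Agent.P273.H25
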